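import Vale.Agent.P112.Angular

/-! P112: truncated Hilbert transforms along an arbitrary Lipschitz unit field applied to functions with an angular
derivative in `L²` about one point; for radial functions this is the asked inequality, in strong form. -/

open MeasureTheory Real Set Filter Complex ComplexConjugate LineDeriv SchwartzMap Vale.Agent.P112
open scoped Topology ENNReal NNReal SchwartzMap

namespace Vale.Agent.Results.P112.AngularL2

/-- the two halves of the truncated integral -/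
lemma trunc_eq {ε a : ℝ} (hε : 0 < ε) (ha : ε ≤ a) (e : ℂ) (f : 𝓢(ℂ, ℂ)) (x : ℂ) :
    ∫ t in {t : ℝ | ε < |t| ∧ |t| < a}, t⁻¹ • f (x - t • e) = pairT ε a e f x := by
  set q : ℝ → ℂ := fun t => t⁻¹ • f (x - t • e)
  have hset : {t : ℝ | ε < |t| ∧ |t| < a} = Ioo (-a) (-ε) ∪ Ioo ε a := by
    ext t
    simp only [mem_ofPred_eq, mem_union, mem_Ioo]
    constructor
    · rintro ⟨h1, h2⟩
      rcases abs_choice t with h | h
      · right; rw [h] at h1 h2; exact ⟨h1, h2⟩
      · left; rw [h] at h1 h2; constructor <;> linarith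
    · rintro (⟨h1, h2⟩ | ⟨h1, h2⟩)
      · rw [abs_of_neg (by linarith)]; constructor <;> linarith
      · rw [abs_of_pos (by linarith)]; exact ⟨h1, h2⟩
  have hfc : Continuous fun t : ℝ => f (x - t • e) := f.continuous.comp (by fun_prop)
  have hc : ∀ u w : ℝ, (0:ℝ) ∉ Icc u w → ContinuousOn q (Icc u w) := fun u w h0 =>
    (continuousOn_id.inv₀ fun t ht (h : id t = 0) => h0 (by rw [id] at h; rwa [h] at ht)).smul hfc.continuousOn
  have hp : ContinuousOn q (Icc ε a) := hc _ _ fun h => by linarith [h.1]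
  have hn : ContinuousOn q (Icc (-a) (-ε)) := hc _ _ fun h => by linarith [h.2]
  rw [hset, setIntegral_union (Set.disjoint_left.2 fun t h1 h2 => by linarith [h1.2, h2.1]) measurableSet_Ioo
    (hn.integrableOn_Icc.mono_set Ioo_subset_Icc_self) (hp.integrableOn_Icc.mono_set Ioo_subset_Icc_self),
    ← integral_Ioc_eq_integral_Ioo, ← integral_Ioc_eq_integral_Ioo,
    ← intervalIntegral.integral_of_le (neg_le_neg ha), ← intervalIntegral.integral_of_le ha,
    ← intervalIntegral.integral_comp_neg q, pairT]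
  have i1 : IntervalIntegrable (fun t => q (-t)) volume ε a := by
    refine ContinuousOn.intervalIntegrable ?_
    rw [uIcc_of_le ha]
    exact hn.comp continuous_neg.continuousOn fun t ht => ⟨neg_le_neg ht.2, neg_le_neg ht.1⟩
  have i2 : IntervalIntegrable q volume ε a := by
    refine ContinuousOn.intervalIntegrable ?_
    rwa [uIcc_of_le ha]
  rw [← intervalIntegral.integral_add i1 i2]
  refine intervalIntegral.integral_congr fun t ht => ?_
  rw [uIcc_of_le ha] at ht
  simp only [q, max_eq_right ht.1, Complex.real_smul, Complex.ofReal_inv, Complex.ofReal_neg]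
  rw [neg_mul, sub_neg_eq_add, inv_neg]
  ring

/-- the principal value exists and the truncations are uniformly bounded -/
lemma pv (f : 𝓢(ℂ, ℂ)) {a : ℝ} (ha : 0 < a) {e : ℂ → ℂ} (he : ∀ x, ‖e x‖ = 1) :
    ∃ (H : ℂ → ℂ) (K : ℝ), (∀ x, Tendsto (fun ε => pairT ε a (e x) f x) (𝓝[>] 0) (𝓝 (H x))) ∧
      ∀ ε, 0 < ε → ε ≤ a → ∀ x, ‖pairT ε a (e x) f x‖ ≤ K := by
  set L := SchwartzMap.seminorm ℝ 0 0 (SchwartzMap.fderivCLM ℝ ℂ ℂ f)
  have hL : ∀ p q, ‖f p - f q‖ ≤ L * ‖p - q‖ := fun p q =>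
    convex_univ.norm_image_sub_le_of_norm_fderiv_le (fun z _ => f.differentiableAt)
      (fun z _ => (SchwartzMap.fderivCLM ℝ ℂ ℂ f).norm_le_seminorm ℝ z) (mem_univ q) (mem_univ p)
  have hb : ∀ (x : ℂ) (t : ℝ), 0 < t → ‖t⁻¹ • (f (x - t • e x) - f (x + t • e x))‖ ≤ 2 * L := fun x t ht => by
    rw [norm_smul, norm_inv, Real.norm_eq_abs, abs_of_pos ht, inv_mul_le_iff₀ ht]
    refine (hL _ _).trans_eq ?_
    rw [show x - t • e x - (x + t • e x) = (-2 * t) • e x by simp only [Complex.real_smul]; push_cast; ring,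
      norm_smul, he, Real.norm_eq_abs, abs_mul, abs_of_pos ht]
    norm_num; ring
  have heq : ∀ x ε, 0 < ε → ε ≤ a →
      pairT ε a (e x) f x = ∫ t in ε..a, t⁻¹ • (f (x - t • e x) - f (x + t • e x)) := fun x ε hε hεa => by
    refine intervalIntegral.integral_congr fun t ht => ?_
    rw [uIcc_of_le hεa] at ht
    simp only [max_eq_right ht.1]
  refine ⟨fun x => ∫ t in (0:ℝ)..a, t⁻¹ • (f (x - t • e x) - f (x + t • e x)), 2 * L * a, fun x => ?_,
    fun ε hε hεa x => ?_⟩
  · set q : ℝ → ℂ := fun t => t⁻¹ • (f (x - t • e x) - f (x + t • e x))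
    have hm : AEStronglyMeasurable q (volume.restrict (uIoc 0 a)) :=
      (measurable_inv.smul (((f.continuous.comp (by fun_prop : Continuous fun t : ℝ => x - t • e x)).sub
        (f.continuous.comp (by fun_prop : Continuous fun t : ℝ => x + t • e x))).measurable)).aestronglyMeasurable
    have hi : IntervalIntegrable q volume 0 a :=
      IntervalIntegrable.mono_fun' (intervalIntegrable_const (c := 2 * L)) hm
        ((ae_restrict_iff' measurableSet_uIoc).2 (Eventually.of_forall fun t ht => by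
          rw [uIoc_of_le ha.le] at ht; exact hb x t ht.1))
    have hcont := intervalIntegral.continuousOn_primitive_interval_left (a := 0) (b := a)
      ((intervalIntegrable_iff' (by finiteness)).1 hi)
    have h0 := (hcont 0 left_mem_uIcc).tendsto
    refine ((h0.mono_left ?_).congr' ?_)
    · rw [uIcc_of_le ha.le, ← nhdsWithin_Ioc_eq_nhdsGT ha]
      exact nhdsWithin_mono _ Ioc_subset_Icc_self
    · filter_upwards [Ioc_mem_nhdsGT ha] with ε hε
      exact (heq x ε hε.1 hε.2).symm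
  · rw [heq x ε hε hεa]
    refine (intervalIntegral.norm_integral_le_of_norm_le_const (C := 2 * L) fun t ht => ?_).trans ?_
    · rw [uIoc_of_le hεa] at ht; exact hb x t (hε.trans ht.1)
    · rw [abs_of_nonneg (sub_nonneg.2 hεa)]
      exact mul_le_mul_of_nonneg_left (by linarith) (mul_nonneg two_pos.le (apply_nonneg _ _))

/-- **Stein's inequality for functions that are regular in the angle about one point** -/
theorem result : ∃ C : ℝ, 0 < C ∧ ∀ v : ℂ → ℂ, LipschitzWith 1 v → (∀ x, ‖v x‖ = 1) →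
    ∀ a : ℝ, 0 < a → ∀ f : 𝓢(ℂ, ℂ), ∃ H : ℂ → ℂ,
      (∀ x, Tendsto (fun ε : ℝ => ∫ t in {t : ℝ | ε < |t| ∧ |t| < a}, t⁻¹ • f (x - t • v x))
        (𝓝[>] 0) (𝓝 (H x))) ∧
      (∀ x₀ : ℂ, IntegrableOn (fun x => ‖H x‖ ^ 2) (Metric.closedBall x₀ (1/2)) ∧
        ∫ x in Metric.closedBall x₀ (1/2), ‖H x‖ ^ 2 ≤ C * ((∫ z, ‖f z‖ ^ 2) +
          √(∫ z, ‖f z‖ ^ 2) * √(∫ z, ‖fderiv ℝ f z (Complex.I * (z - x₀))‖ ^ 2))) ∧
      (∀ x₀ : ℂ, a ≤ 1/4 → (∀ z, 1/4 < ‖z - x₀‖ → f z = 0) →
        (∀ z w, ‖z - x₀‖ = ‖w - x₀‖ → f z = f w) →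
        Integrable (fun x => ‖H x‖ ^ 2) ∧ (∫ x, ‖H x‖ ^ 2 ≤ C * ∫ z, ‖f z‖ ^ 2) ∧
        ∀ lam : ℝ, 0 < lam → volume {x | lam < ‖H x‖} ≤ ENNReal.ofReal (C / lam ^ 2 * ∫ z, ‖f z‖ ^ 2)) := by
  refine ⟨1024 * π + 256, by positivity, fun v hv hv1 a ha f => ?_⟩
  obtain ⟨H, K, hlim, hK⟩ := pv f ha hv1
  have hlim' : ∀ x, Tendsto (fun ε : ℝ => ∫ t in {t : ℝ | ε < |t| ∧ |t| < a}, t⁻¹ • f (x - t • v x))
      (𝓝[>] 0) (𝓝 (H x)) := fun x => (hlim x).congr' (by
    filter_upwards [Ioc_mem_nhdsGT ha] with ε hε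
    exact (trunc_eq hε.1 hε.2 (v x) f x).symm)
  set εn : ℕ → ℝ := fun n => a / ((n:ℝ) + 2)
  have hεn : ∀ n, 0 < εn n ∧ εn n ≤ a := fun n =>
    ⟨div_pos ha (by positivity), div_le_self ha.le (by linarith [(n.cast_nonneg : (0:ℝ) ≤ n)])⟩
  have hεt : Tendsto εn atTop (𝓝[>] 0) := tendsto_nhdsWithin_iff.2 ⟨tendsto_const_nhds.div_atTop
    (tendsto_atTop_add_const_right _ 2 tendsto_natCast_atTop_atTop), Eventually.of_forall fun n => (hεn n).1⟩
  have hcn : ∀ n, Continuous fun x => ‖pairT (εn n) a (v x) f x‖ ^ 2 := fun n =>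
    (continuous_pairT (hεn n).1 f.continuous hv.continuous continuous_id).norm.pow 2
  have hpt : ∀ x, Tendsto (fun n => ‖pairT (εn n) a (v x) f x‖ ^ 2) atTop (𝓝 (‖H x‖ ^ 2)) := fun x =>
    ((hlim x).comp hεt).norm.pow 2
  have hHm : AEStronglyMeasurable (fun x => ‖H x‖ ^ 2) volume :=
    aestronglyMeasurable_of_tendsto_ae atTop (fun n => (hcn n).aestronglyMeasurable) (Eventually.of_forall hpt)
  have hKb : ∀ n x, ‖pairT (εn n) a (v x) f x‖ ^ 2 ≤ K ^ 2 := fun n x =>
    pow_le_pow_left₀ (norm_nonneg _) (hK _ (hεn n).1 (hεn n).2 x) 2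
  have hball : ∀ x₀ : ℂ, IntegrableOn (fun x => ‖H x‖ ^ 2) (Metric.closedBall x₀ (1/2)) ∧
      ∫ x in Metric.closedBall x₀ (1/2), ‖H x‖ ^ 2 ≤ (1024 * π + 256) * ((∫ z, ‖f z‖ ^ 2) +
        √(∫ z, ‖f z‖ ^ 2) * √(∫ z, ‖fderiv ℝ f z (Complex.I * (z - x₀))‖ ^ 2)) := fun x₀ => by
    simp only [← angD_apply]
    set A := ∫ z, ‖f z‖ ^ 2
    set B := ∫ z, ‖angD x₀ f z‖ ^ 2
    haveI : IsFiniteMeasure (volume.restrict (Metric.closedBall x₀ (1/2:ℝ))) :=
      ⟨by rw [Measure.restrict_apply_univ]; exact (isCompact_closedBall x₀ (1/2:ℝ)).measure_lt_top⟩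
    refine ⟨Integrable.mono' (integrable_const (K ^ 2)) hHm.restrict (Eventually.of_forall fun x => ?_), ?_⟩
    · rw [Real.norm_eq_abs, abs_of_nonneg (sq_nonneg _)]
      exact le_of_tendsto (hpt x) (Eventually.of_forall fun n => hKb n x)
    have hconv : Tendsto (fun n => ∫ x in Metric.closedBall x₀ (1/2), ‖pairT (εn n) a (v x) f x‖ ^ 2) atTop
        (𝓝 (∫ x in Metric.closedBall x₀ (1/2), ‖H x‖ ^ 2)) :=
      tendsto_integral_of_dominated_convergence (fun _ => K ^ 2) (fun n => (hcn n).aestronglyMeasurable)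
        (integrable_const _) (fun n => Eventually.of_forall fun x => by
          rw [Real.norm_eq_abs, abs_of_nonneg (sq_nonneg _)]; exact hKb n x) (Eventually.of_forall hpt)
    refine le_of_tendsto hconv (Eventually.of_forall fun n => ?_)
    have hA : 0 ≤ A := integral_nonneg fun _ => sq_nonneg _
    have hB : 0 ≤ B := integral_nonneg fun _ => sq_nonneg _
    -- the free parameter tends to `√B / √A`
    have key : ∀ d : ℝ, 0 < d → ∫ x in Metric.closedBall x₀ (1/2), ‖pairT (εn n) a (v x) f x‖ ^ 2 ≤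
        256 * (A + 4 * π * (√A * √B)) + 512 * π * d * (√A + √B) := fun d hd => by
      have h := pairT_angular (hεn n).1 (hεn n).2 hv hv1 f x₀
        (s := (√B + d) / (√A + d)) (by positivity)
      refine h.trans ?_
      have e1 : (√B + d) / (√A + d) * A ≤ (√B + d) * √A := by
        rw [div_mul_eq_mul_div, div_le_iff₀ (by positivity), mul_assoc]
        refine mul_le_mul_of_nonneg_left ?_ (by positivity)
        nlinarith [Real.mul_self_sqrt hA, Real.sqrt_nonneg A, mul_nonneg (Real.sqrt_nonneg A) hd.le]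
      have e2 : B / ((√B + d) / (√A + d)) ≤ √B * (√A + d) := by
        rw [div_div_eq_mul_div, div_le_iff₀ (by positivity)]
        nlinarith [Real.mul_self_sqrt hB, Real.sqrt_nonneg B, Real.sqrt_nonneg A,
          mul_nonneg (mul_nonneg (Real.sqrt_nonneg B) hd.le) (add_nonneg (Real.sqrt_nonneg A) hd.le)]
      have e3 : 2 * π / ((√B + d) / (√A + d)) * B = 2 * π * (B / ((√B + d) / (√A + d))) := by ring
      rw [e3]
      nlinarith [pi_pos, mul_le_mul_of_nonneg_left e1 pi_pos.le, mul_le_mul_of_nonneg_left e2 pi_pos.le]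
    have hfin : ∫ x in Metric.closedBall x₀ (1/2), ‖pairT (εn n) a (v x) f x‖ ^ 2 ≤
        256 * (A + 4 * π * (√A * √B)) := by
      refine le_of_forall_pos_le_add fun η hη => ?_
      set T := 512 * π * (√A + √B) + 1
      have hT : 0 < T := by positivity
      refine (key (η / T) (by positivity)).trans ?_
      have : 512 * π * (η / T) * (√A + √B) ≤ η := by
        rw [show 512 * π * (η / T) * (√A + √B) = η * (512 * π * (√A + √B) / T) by ring]
        exact mul_le_of_le_one_right hη.le ((div_le_one hT).2 (by simp only [T]; linarith))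
      linarith
    refine hfin.trans ?_
    nlinarith [pi_pos, mul_nonneg (Real.sqrt_nonneg A) (Real.sqrt_nonneg B), mul_nonneg pi_pos.le hA]
  refine ⟨H, hlim', hball, fun x₀ ha4 hsupp hrad => ?_⟩
  obtain ⟨hi, hb⟩ := hball x₀
  have hD : ∀ z, fderiv ℝ f z (Complex.I * (z - x₀)) = 0 := fun z => by
    have h1 : HasDerivAt (fun φ : ℝ => x₀ + Complex.exp (φ * Complex.I) * (z - x₀)) (Complex.I * (z - x₀)) 0 := by
      have h0 : HasDerivAt (fun t : ℝ => (t : ℂ) * Complex.I) Complex.I (0:ℝ) := by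
        simpa using ((hasDerivAt_id (0:ℝ)).ofReal_comp).mul_const Complex.I
      simpa using (h0.cexp.mul_const (z - x₀)).const_add x₀
    have h2 := (f.differentiableAt (x := x₀ + Complex.exp (((0:ℝ):ℂ) * Complex.I) * (z - x₀))).hasFDerivAt.comp_hasDerivAt
      (0:ℝ) h1
    simp only [Complex.ofReal_zero, zero_mul, Complex.exp_zero, one_mul, add_sub_cancel] at h2
    have h3 : (f ∘ fun φ : ℝ => x₀ + Complex.exp (φ * Complex.I) * (z - x₀)) = fun _ => f z :=
      funext fun φ => hrad _ _ (by rw [add_sub_cancel_left, norm_mul, Complex.norm_exp_ofReal_mul_I, one_mul])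
    rw [h3] at h2
    exact h2.unique (hasDerivAt_const _ _)
  simp only [hD, norm_zero, ne_eq, OfNat.ofNat_ne_zero, not_false_eq_true, zero_pow, integral_zero, Real.sqrt_zero,
    mul_zero, add_zero] at hb
  have hz : ∀ x, x ∉ Metric.closedBall x₀ (1/2:ℝ) → H x = 0 := fun x hx => by
    refine tendsto_nhds_unique (hlim' x) ((tendsto_const_nhds (x := (0:ℂ))).congr' ?_)
    filter_upwards [self_mem_nhdsWithin] with ε hε
    rw [setIntegral_eq_zero_of_forall_eq_zero]
    rintro t ⟨-, ht⟩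
    rw [hsupp _ ?_, smul_zero]
    rw [Metric.mem_closedBall, dist_eq_norm, not_le] at hx
    have := norm_sub_norm_le (x - x₀) (t • v x)
    rw [norm_smul, hv1, mul_one, Real.norm_eq_abs] at this
    rw [show x - t • v x - x₀ = x - x₀ - t • v x by abel]
    linarith
  have hsup : Function.support (fun x => ‖H x‖ ^ 2) ⊆ Metric.closedBall x₀ (1/2:ℝ) := fun x hx => by
    by_contra h; exact hx (by simp [hz x h])
  have hI : Integrable (fun x => ‖H x‖ ^ 2) := (integrableOn_iff_integrable_of_support_subset hsup).1 hi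
  have hs2 : ∫ x, ‖H x‖ ^ 2 ≤ (1024 * π + 256) * ∫ z, ‖f z‖ ^ 2 := by
    rwa [← setIntegral_eq_integral_of_forall_compl_eq_zero (s := Metric.closedBall x₀ (1/2:ℝ))
      fun x hx => by simp [hz x hx]]
  refine ⟨hI, hs2, fun lam hlam => ?_⟩
  have hch := mul_meas_ge_le_integral_of_nonneg (Eventually.of_forall fun x => sq_nonneg _) hI (lam ^ 2)
  calc volume {x | lam < ‖H x‖} ≤ volume {x | lam ^ 2 ≤ ‖H x‖ ^ 2} :=
        measure_mono fun x (hx : lam < ‖H x‖) =>
          show lam ^ 2 ≤ ‖H x‖ ^ 2 from pow_le_pow_left₀ hlam.le hx.le 2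
    _ = ENNReal.ofReal (volume.real {x | lam ^ 2 ≤ ‖H x‖ ^ 2}) := by
        refine (ofReal_measureReal ?_).symm
        refine ne_top_of_le_ne_top (isCompact_closedBall x₀ (1/2:ℝ)).measure_lt_top.ne (measure_mono fun x hx => ?_)
        by_contra h
        have : lam ^ 2 ≤ ‖H x‖ ^ 2 := hx
        rw [hz x h] at this
        simp at this
        nlinarith
    _ ≤ _ := ENNReal.ofReal_le_ofReal (by
        rw [div_mul_eq_mul_div, le_div_iff₀ (by positivity)]
        linarith)

end Vale.Agent.Results.P112.AngularL2
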